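import Vale.Agent.P155.N924.Arcs
import Vale.Agent.P155.T802.Par

/-!
# P155, NT: parametrisation of a square ring of faces
-/

namespace Vale.Agent.P155.NT

open Vale.Agent.P155 Finset H904

/-- the ring of radius `s` around `z`, run once counterclockwise for `0 ≤ t ≤ 8 s` -/
def rp (z : Pt) (s t : ℤ) : Pt :=
  if t < 2 * s then (z.1 + s, z.2 - s + t)
  else if t < 4 * s then (z.1 + 3 * s - t, z.2 + s)
  else if t < 6 * s then (z.1 - s, z.2 + 5 * s - t)
  else (z.1 - 7 * s + t, z.2 - s)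

/-- inner end of the edge between the faces `rp t` and `rp (t+1)` -/
def wi (z : Pt) (s t : ℤ) : Pt :=
  if t < 2 * s then (z.1 + s, z.2 - s + t + 1)
  else if t < 4 * s then (z.1 + 3 * s - t, z.2 + s)
  else if t < 6 * s then (z.1 - s + 1, z.2 + 5 * s - t)
  else (z.1 - 7 * s + t + 1, z.2 - s + 1)

/-- outer end of the edge between the faces `rp t` and `rp (t+1)` -/
def wo (z : Pt) (s t : ℤ) : Pt :=
  if t < 2 * s then (z.1 + s + 1, z.2 - s + t + 1)
  else if t < 4 * s then (z.1 + 3 * s - t, z.2 + s + 1)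
  else if t < 6 * s then (z.1 - s, z.2 + 5 * s - t)
  else (z.1 - 7 * s + t + 1, z.2 - s)

/-- the vertices inside the ring -/
def Win (z : Pt) (s : ℤ) (u : Pt) : Prop :=
  z.1 - s + 1 ≤ u.1 ∧ u.1 ≤ z.1 + s ∧ z.2 - s + 1 ≤ u.2 ∧ u.2 ≤ z.2 + s

theorem mem_corners' {u f : Pt} : u ∈ T802.corners f ↔
    (f.1 ≤ u.1 ∧ u.1 ≤ f.1 + 1 ∧ f.2 ≤ u.2 ∧ u.2 ≤ f.2 + 1) := by
  obtain ⟨x, y⟩ := f
  obtain ⟨p, q⟩ := u
  simp only [T802.corners, mem_insert, mem_singleton, Prod.mk.injEq]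
  omega

theorem dn_eq_iff {z w : Pt} {s : ℕ} : dn z w = s ↔
    ((z.1 - s ≤ w.1 ∧ w.1 ≤ z.1 + s ∧ z.2 - s ≤ w.2 ∧ w.2 ≤ z.2 + s) ∧
      (w.1 = z.1 - s ∨ w.1 = z.1 + s ∨ w.2 = z.2 - s ∨ w.2 = z.2 + s)) := by
  have h := dn_spec z w
  constructor
  · intro e
    rw [e] at h
    omega
  · intro e
    omega

theorem dn_le_iff' {z w : Pt} {s : ℕ} : dn z w ≤ s ↔
    (z.1 - s ≤ w.1 ∧ w.1 ≤ z.1 + s ∧ z.2 - s ≤ w.2 ∧ w.2 ≤ z.2 + s) := by
  have h := dn_spec z w
  omega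

theorem rp_dn {z : Pt} {s : ℕ} {t : ℤ} (h0 : 0 ≤ t) (h1 : t ≤ 8 * s) : dn z (rp z s t) = s := by
  rw [dn_eq_iff]
  unfold rp
  split_ifs <;> dsimp only <;> omega

theorem adj_iff' {u v : Pt} : Adj u v ↔
    ((u.1 = v.1 ∧ (u.2 = v.2 + 1 ∨ v.2 = u.2 + 1)) ∨
      (u.2 = v.2 ∧ (u.1 = v.1 + 1 ∨ v.1 = u.1 + 1))) := by
  rw [← mem_nbrs]
  obtain ⟨a, b⟩ := u
  obtain ⟨c, d⟩ := v
  simp only [nbrs, mem_insert, mem_singleton, Prod.mk.injEq]
  omega

theorem rp_step {z : Pt} {s : ℕ} {t : ℤ} (h0 : 0 ≤ t) (h1 : t < 8 * s) :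
    rp z s (t + 1) ∈ nbrs (rp z s t) := by
  rw [mem_nbrs, adj_iff']
  unfold rp
  split_ifs <;> dsimp only <;> omega

theorem rp_end (z : Pt) (s : ℕ) : rp z s (8 * s) = rp z s 0 := by
  unfold rp
  split_ifs <;> simp only [Prod.mk.injEq, true_and, and_true, true_or, or_true, and_self] <;> omega

theorem rp_inj {z : Pt} {s : ℕ} {t t' : ℤ} (h0 : 0 ≤ t) (h1 : t < 8 * s) (h0' : 0 ≤ t')
    (h1' : t' < 8 * s) (h : rp z s t = rp z s t') : t = t' := by
  unfold rp at h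
  split_ifs at h <;> simp only [Prod.mk.injEq] at h <;> omega

/-- the common corners of two consecutive faces of the ring -/
theorem ring_corner {z : Pt} {s : ℕ} {t : ℤ} (h0 : 0 ≤ t) (h1 : t < 8 * s) {u : Pt} :
    (u ∈ T802.corners (rp z s t) ∧ u ∈ T802.corners (rp z s (t + 1))) ↔
      (u = wi z s t ∨ u = wo z s t) := by
  rw [mem_corners', mem_corners']
  obtain ⟨p, q⟩ := u
  unfold rp wi wo
  split_ifs <;> simp only [Prod.mk.injEq, true_and, and_true, true_or, or_true, and_self] <;> omega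

theorem wi_win {z : Pt} {s : ℕ} {t : ℤ} (h0 : 0 ≤ t) (h1 : t < 8 * s) : Win z s (wi z s t) := by
  unfold Win wi
  split_ifs <;> dsimp only <;> omega

theorem wo_win {z : Pt} {s : ℕ} {t : ℤ} (h0 : 0 ≤ t) (h1 : t < 8 * s) : ¬ Win z s (wo z s t) := by
  unfold Win wo
  split_ifs <;> dsimp only <;> omega

theorem wiwo_inj {z : Pt} {s : ℕ} {t t' : ℤ} (h0 : 0 ≤ t) (h1 : t < 8 * s) (h0' : 0 ≤ t')
    (h1' : t' < 8 * s) (h : wi z s t = wi z s t') (h' : wo z s t = wo z s t') : t = t' := by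
  unfold wi at h
  unfold wo at h'
  split_ifs at h h' <;> simp only [Prod.mk.injEq] at h h' <;> omega

/-- every edge across the ring is seen -/
theorem exists_t {z : Pt} {s : ℕ} {u u' : Pt} (hu : Win z s u) (hu' : ¬ Win z s u')
    (h : Adj u u') : ∃ t : ℤ, 0 ≤ t ∧ t < 8 * s ∧ u = wi z s t ∧ u' = wo z s t := by
  rw [adj_iff'] at h
  unfold Win at hu hu'
  obtain ⟨p, q⟩ := u
  obtain ⟨p', q'⟩ := u'
  simp only at h hu hu'
  have hc : (p = z.1 + s ∧ p' = z.1 + s + 1 ∧ q = q') ∨ (q = z.2 + s ∧ q' = z.2 + s + 1 ∧ p = p') ∨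
      (p = z.1 - s + 1 ∧ p' = z.1 - s ∧ q = q') ∨ (q = z.2 - s + 1 ∧ q' = z.2 - s ∧ p = p') := by
    omega
  rcases hc with hc | hc | hc | hc
  · refine ⟨q - 1 - z.2 + s, by omega, by omega, ?_, ?_⟩
    · unfold wi
      rw [if_pos (by omega)]
      refine Prod.ext ?_ ?_ <;> dsimp only <;> omega
    · unfold wo
      rw [if_pos (by omega)]
      refine Prod.ext ?_ ?_ <;> dsimp only <;> omega
  · refine ⟨z.1 + 3 * s - p, by omega, by omega, ?_, ?_⟩
    · unfold wi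
      rw [if_neg (by omega), if_pos (by omega)]
      refine Prod.ext ?_ ?_ <;> dsimp only <;> omega
    · unfold wo
      rw [if_neg (by omega), if_pos (by omega)]
      refine Prod.ext ?_ ?_ <;> dsimp only <;> omega
  · refine ⟨z.2 + 5 * s - q, by omega, by omega, ?_, ?_⟩
    · unfold wi
      rw [if_neg (by omega), if_neg (by omega), if_pos (by omega)]
      refine Prod.ext ?_ ?_ <;> dsimp only <;> omega
    · unfold wo
      rw [if_neg (by omega), if_neg (by omega), if_pos (by omega)]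
      refine Prod.ext ?_ ?_ <;> dsimp only <;> omega
  · refine ⟨p - 1 - z.1 + 7 * s, by omega, by omega, ?_, ?_⟩
    · unfold wi
      rw [if_neg (by omega), if_neg (by omega), if_neg (by omega)]
      refine Prod.ext ?_ ?_ <;> dsimp only <;> omega
    · unfold wo
      rw [if_neg (by omega), if_neg (by omega), if_neg (by omega)]
      refine Prod.ext ?_ ?_ <;> dsimp only <;> omega

/-- the ring as a periodic sequence -/
def R (z : Pt) (s : ℕ) (j : ℕ) : Pt := rp z s ((j % (8 * s) : ℕ) : ℤ)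

theorem R_per (z : Pt) (s j : ℕ) : R z s (j + 8 * s) = R z s j := by
  unfold R
  rw [Nat.add_mod_right]

theorem R_dn {z : Pt} {s : ℕ} (hs : 1 ≤ s) (j : ℕ) : dn z (R z s j) = s := by
  have := Nat.mod_lt j (y := 8 * s) (by omega)
  exact rp_dn (by positivity) (by omega)

theorem R_succ {z : Pt} {s : ℕ} (hs : 1 ≤ s) (j : ℕ) :
    R z s (j + 1) = rp z s (((j % (8 * s) : ℕ) : ℤ) + 1) := by
  have h := Nat.mod_lt j (y := 8 * s) (by omega)
  unfold R
  by_cases h1 : j % (8 * s) + 1 = 8 * s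
  · have h2 : (j + 1) % (8 * s) = 0 := by
      rw [Nat.add_mod, Nat.mod_eq_of_lt (a := 1) (by omega), h1, Nat.mod_self]
    rw [h2]
    have h3 : ((j % (8 * s) : ℕ) : ℤ) + 1 = 8 * s := by exact_mod_cast h1
    rw [h3, rp_end]; rfl
  · have h2 : (j + 1) % (8 * s) = j % (8 * s) + 1 := by
      rw [Nat.add_mod, Nat.mod_eq_of_lt (a := 1) (by omega), Nat.mod_eq_of_lt (by omega)]
    rw [h2]
    push_cast; rfl

theorem R_step {z : Pt} {s : ℕ} (hs : 1 ≤ s) (j : ℕ) : R z s (j + 1) ∈ nbrs (R z s j) := by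
  rw [R_succ hs]
  have h := Nat.mod_lt j (y := 8 * s) (by omega)
  exact rp_step (by positivity) (by omega)

theorem R_inj {z : Pt} {s : ℕ} (hs : 1 ≤ s) {t0 i j : ℕ} (hi : i < 8 * s) (hj : j < 8 * s)
    (h : R z s (t0 + i) = R z s (t0 + j)) : i = j := by
  have h1 := Nat.mod_lt (t0 + i) (y := 8 * s) (by omega)
  have h2 := Nat.mod_lt (t0 + j) (y := 8 * s) (by omega)
  have h3 := rp_inj (by positivity) (by exact_mod_cast h1) (by positivity) (by exact_mod_cast h2) h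
  have h4 : (t0 + i) % (8 * s) = (t0 + j) % (8 * s) := by exact_mod_cast h3
  have h5 : i ≡ j [MOD 8 * s] := Nat.ModEq.add_left_cancel' t0 h4
  have h6 := Nat.mod_eq_of_lt hi
  have h7 := Nat.mod_eq_of_lt hj
  unfold Nat.ModEq at h5
  omega

/-- sums over a period -/
theorem sum_per {M : Type*} [AddCancelCommMonoid M] {f : ℕ → M} {n : ℕ}
    (h : ∀ j, f (j + n) = f j) (t0 : ℕ) :
    ∑ j ∈ range n, f (t0 + j) = ∑ j ∈ range n, f j := by
  induction t0 with
  | zero => simp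
  | succ t0 ih =>
    rw [← ih]
    have h1 : ∑ j ∈ range (n + 1), f (t0 + j) = ∑ j ∈ range n, f (t0 + j) + f (t0 + n) :=
      sum_range_succ _ _
    have h2 : ∑ j ∈ range (n + 1), f (t0 + j) = ∑ j ∈ range n, f (t0 + (j + 1)) + f (t0 + 0) :=
      sum_range_succ' _ _
    rw [h (t0)] at h1
    have h3 : ∑ j ∈ range n, f (t0 + 1 + j) = ∑ j ∈ range n, f (t0 + (j + 1)) := by
      apply sum_congr rfl
      intro j _
      congr 1
      ring
    rw [h3]
    rw [add_zero] at h2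
    exact add_right_cancel (h2.symm.trans h1)

end Vale.Agent.P155.NT
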