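import Vale.Agent.P155.NT814.Odd

/-!
# P155, NT: RING ARCS, and the flux at a touching
-/

namespace Vale.Agent.P155.NT

open Vale.Agent.P155 Finset H904

variable {O : Set Pt} {z0 : Pt} {a D : ℕ} {f0 : Pt} {v : ℕ → Pt} {M : ℕ}
  {π : Pt → ZMod 2} {c : ZMod 2}

theorem z2_ne : ∀ p q : ZMod 2, p ≠ q → p + q = 1 := by decide

theorem z2_case : ∀ p q c : ZMod 2, p + q = 1 → p ≠ c → q = c := by decide

theorem z2_one : ∀ p : ZMod 2, p ≠ 1 → p = 0 := by decide

theorem ct_par (hd : RingData O z0 a D f0 v M π) (haD : a ≤ D) {s : ℕ} (hs : a < s)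
    (hsD : s ≤ D) (t : ℕ) (h1 : R z0 s t ∈ Cls O z0 D f0)
    (h2 : R z0 s (t + 1) ∈ Cls O z0 D f0) :
    ct O z0 D f0 v M s t = π (R z0 s t) + π (R z0 s (t + 1)) := by
  classical
  have hs1 : 1 ≤ s := by omega
  have hf0O : f0 ∈ O := (hd.far M le_rfl f0 hd.f0 ((hd.tip f0 hd.f0).trans haD)).1
  have hf0D : dn z0 f0 ≤ D := (hd.tip f0 hd.f0).trans haD
  have hp := hd.par (R z0 s t) (R z0 s (t + 1)) (R_step hs1 t) (cls_mem hf0O hf0D h1).1
    (cls_mem hf0O hf0D h2).1 (by rw [R_dn hs1]; omega) (by rw [R_dn hs1]; exact hsD)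
    (by rw [R_dn hs1]; omega) (by rw [R_dn hs1]; exact hsD)
  by_cases h : π (R z0 s t) = π (R z0 s (t + 1))
  · rw [← h, T802.z2]
    unfold ct
    rw [if_neg]
    rintro ⟨_, _, h3⟩
    exact hp.2 h3 h
  · rw [z2_ne _ _ h]
    unfold ct
    rw [if_pos ⟨h1, h2, hp.1 h⟩]

theorem ct_zero_left {s t : ℕ} (h : R z0 s t ∉ Cls O z0 D f0) : ct O z0 D f0 v M s t = 0 := by
  unfold ct
  rw [if_neg (fun h' => h h'.1)]

theorem ct_zero_right {s t : ℕ} (h : R z0 s (t + 1) ∉ Cls O z0 D f0) :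
    ct O z0 D f0 v M s t = 0 := by
  unfold ct
  rw [if_neg (fun h' => h h'.2.1)]

theorem ct_per (s t : ℕ) : ct O z0 D f0 v M s (t + 8 * s) = ct O z0 D f0 v M s t := by
  have h1 : R z0 s (t + 8 * s) = R z0 s t := R_per z0 s t
  have h2 : R z0 s (t + 8 * s + 1) = R z0 s (t + 1) := by
    rw [show t + 8 * s + 1 = t + 1 + 8 * s by ring]
    exact R_per z0 s (t + 1)
  unfold ct
  rw [h1, h2]

/-- **RING ARCS**: every ring between the tip and the boundary of the box contains an arc of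
faces of `U` from an old face (value `0`) to a face at the new path (value `1`). -/
theorem ring_arcs (hd : RingData O z0 a D f0 v M π) (haD : a ≤ D) {H : Pt → ℝ}
    (hH0 : ∀ f ∈ Cls O z0 D f0, ∀ f' ∈ nbrs f, dn z0 f' ≤ D → f' ∉ O → H f' = 0)
    (hH1 : ∀ f ∈ Cls O z0 D f0, ∀ i ≤ M, v i ∈ T802.corners f → a < dn z0 f → π f = c → H f = 1)
    {s : ℕ} (hs : a < s) (hsD : s ≤ D) : HasArc z0 s (Uf O z0 D f0 v M π c) H := by
  classical
  have hs1 : 1 ≤ s := by omega
  -- a face of the ring off the class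
  obtain ⟨t0, ht0⟩ : ∃ t0, R z0 s t0 ∉ Cls O z0 D f0 := by
    by_contra hc
    push Not at hc
    have h1 := sum_ct hd hs hsD
    rw [sum_congr rfl (fun t _ => ct_par hd haD hs hsD t (hc t) (hc (t + 1))),
      tele (fun t => π (R z0 s t)) (8 * s)] at h1
    have h2 : R z0 s (8 * s) = R z0 s 0 := by
      have := R_per z0 s 0
      rwa [zero_add] at this
    rw [h2, T802.z2] at h1
    exact absurd h1 (by decide)
  set S : ℕ → ZMod 2 := fun j => ∑ l ∈ range j, ct O z0 D f0 v M s (t0 + l) with hS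
  have hS8 : S (8 * s) = 1 := by
    simp only [hS]
    rw [sum_per (f := fun l => ct O z0 D f0 v M s l) (n := 8 * s) (fun j => ct_per s j) t0]
    exact sum_ct hd hs hsD
  have hex : ∃ j, R z0 s (t0 + j) ∉ Cls O z0 D f0 ∧ S j = 1 := by
    refine ⟨8 * s, ?_, hS8⟩
    rw [R_per]; exact ht0
  obtain ⟨h11, h12⟩ := Nat.find_spec hex
  have hle : Nat.find hex ≤ 8 * s := Nat.find_min' hex ⟨by rw [R_per]; exact ht0, hS8⟩
  have hmin : ∀ j < Nat.find hex, ¬ (R z0 s (t0 + j) ∉ Cls O z0 D f0 ∧ S j = 1) :=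
    fun j hj => Nat.find_min hex hj
  set i1 := Nat.find hex with hi1
  have hi1pos : i1 ≠ 0 := by
    intro h
    rw [h] at h12
    simp only [hS, sum_range_zero] at h12
    exact absurd h12 (by decide)
  set P : ℕ → Prop := fun j => R z0 s (t0 + j) ∉ Cls O z0 D f0 with hP
  set i0 := Nat.findGreatest P (i1 - 1) with hi0
  have hP0 : P 0 := by simp only [hP, add_zero]; exact ht0
  have hPi0 : P i0 := Nat.findGreatest_spec (P := P) (Nat.zero_le (i1 - 1)) hP0
  have hi0le : i0 ≤ i1 - 1 := Nat.findGreatest_le _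
  have hin : ∀ j, i0 < j → j < i1 → R z0 s (t0 + j) ∈ Cls O z0 D f0 := by
    intro j hj hj'
    by_contra hc
    exact Nat.findGreatest_is_greatest hj (by omega) hc
  have hSi0 : S i0 = 0 := by
    apply z2_one
    intro h
    exact hmin i0 (by omega) ⟨hPi0, h⟩
  have hc0 : ct O z0 D f0 v M s (t0 + i0) = 0 := ct_zero_left hPi0
  have hlt : i0 + 1 < i1 := by
    by_contra hc
    have h1 : i1 = i0 + 1 := by omega
    rw [h1] at h12
    simp only [hS] at h12 hSi0
    rw [sum_range_succ, hSi0, hc0] at h12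
    exact absurd h12 (by decide)
  clear_value i0 i1
  obtain ⟨m, hm⟩ : ∃ m, i1 = i0 + 1 + m + 1 := ⟨i1 - i0 - 2, by omega⟩
  -- parity along the run
  have hrun : π (R z0 s (t0 + i0 + 1)) + π (R z0 s (t0 + i0 + 1 + m)) = 1 := by
    have h1 : S i1 = S (i0 + 1) + ∑ l ∈ range m, ct O z0 D f0 v M s (t0 + (i0 + 1 + l)) +
        ct O z0 D f0 v M s (t0 + (i0 + 1 + m)) := by
      simp only [hS]
      rw [hm, sum_range_succ, sum_range_add]
    have h2 : S (i0 + 1) = 0 := by
      simp only [hS] at hSi0 ⊢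
      rw [sum_range_succ, hSi0, hc0, add_zero]
    have h3 : ct O z0 D f0 v M s (t0 + (i0 + 1 + m)) = 0 := by
      apply ct_zero_right
      have : t0 + (i0 + 1 + m) + 1 = t0 + i1 := by omega
      rw [this]; exact h11
    rw [h12, h2, h3, zero_add, add_zero] at h1
    have hct : ∀ l ∈ range m, ct O z0 D f0 v M s (t0 + (i0 + 1 + l)) =
        π (R z0 s (t0 + (i0 + 1 + l))) + π (R z0 s (t0 + (i0 + 1 + l) + 1)) := by
      intro l hl
      rw [mem_range] at hl
      apply ct_par hd haD hs hsD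
      · exact hin (i0 + 1 + l) (by omega) (by omega)
      · have := hin (i0 + 1 + l + 1) (by omega) (by omega)
        rwa [← add_assoc] at this
    rw [sum_congr rfl hct] at h1
    have h4 := tele (fun l => π (R z0 s (t0 + (i0 + 1 + l)))) m
    rw [h1]
    have e1 : t0 + i0 + 1 = t0 + (i0 + 1 + 0) := by ring
    have e2 : t0 + i0 + 1 + m = t0 + (i0 + 1 + m) := by ring
    rw [e2, e1, ← h4]
    apply sum_congr rfl
    intro l _
    rw [show t0 + (i0 + 1 + (l + 1)) = t0 + (i0 + 1 + l) + 1 by ring]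
  by_cases hπ : π (R z0 s (t0 + i0 + 1)) = c
  · refine arc_of_run hd haD hH0 hH1 hs hsD (n := m + 1) (r := fun j => R z0 s (t0 + i0 + j))
      (fun j _ => R_dn hs1 _) (fun j _ => R_step hs1 _) ?_ ?_ ?_ (by omega) hπ ?_
    · intro i j hi hj h
      exact R_inj hs1 (by omega) (by omega) h
    · exact hPi0
    · intro j hj hj'
      have := hin (i0 + j) (by omega) (by omega)
      rwa [← add_assoc] at this
    · intro h
      have e : t0 + i0 + (m + 1) = t0 + i0 + 1 + m := by ring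
      simp only [e] at h
      rw [hπ, h, T802.z2] at hrun
      exact absurd hrun (by decide)
  · refine arc_of_run hd haD hH0 hH1 hs hsD (n := m + 1)
      (r := fun j => R z0 s (t0 + i0 + 1 + (m + 1 - j)))
      (fun j _ => R_dn hs1 _) ?_ ?_ ?_ ?_ (by omega) ?_ ?_
    · intro j hj
      have e : t0 + i0 + 1 + (m + 1 - j) = t0 + i0 + 1 + (m + 1 - (j + 1)) + 1 := by omega
      simp only [e]
      exact nbrs_symm'.1 (R_step hs1 _)
    · intro i j hi hj h
      have := R_inj hs1 (t0 := t0 + i0 + 1) (by omega) (by omega) h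
      omega
    · have e : t0 + i0 + 1 + (m + 1 - 0) = t0 + i1 := by omega
      simp only [e]
      exact h11
    · intro j hj hj'
      have := hin (i0 + 1 + (m + 1 - j)) (by omega) (by omega)
      have e : t0 + i0 + 1 + (m + 1 - j) = t0 + (i0 + 1 + (m + 1 - j)) := by ring
      simp only [e]
      exact this
    · have e : t0 + i0 + 1 + (m + 1 - 1) = t0 + i0 + 1 + m := by omega
      simp only [e]
      exact z2_case _ _ _ hrun hπ
    · have e : t0 + i0 + 1 + (m + 1 - (m + 1)) = t0 + i0 + 1 := by omega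
      simp only [e]
      exact hπ

/-- **the flux at a touching**: `924`'s lower bound, with the rings supplied by parity. -/
theorem flux_touch {m : ℕ} (ha : 1 ≤ a) (hm : 384 ≤ Real.log m)
    (hd : RingData O z0 a D f0 v M π) (haD : a * m ^ 3 ≤ D + 1) {H : Pt → ℝ}
    (h01 : ∀ x, 0 ≤ H x ∧ H x ≤ 1)
    (hH : ∀ x ∈ Uf O z0 D f0 v M π c, HarmAt H x)
    (hH0 : ∀ f ∈ Cls O z0 D f0, ∀ f' ∈ nbrs f, dn z0 f' ≤ D → f' ∉ O → H f' = 0)
    (hH1 : ∀ f ∈ Cls O z0 D f0, ∀ i ≤ M, v i ∈ T802.corners f → a < dn z0 f → π f = c →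
      H f = 1) :
    Real.log m / 36 ≤ flux (Uf O z0 D f0 v M π c)
      (fun x => tent (Real.log m) a (a * m ^ 3) (dn z0 x)) H := by
  have hm2 : 2 ≤ m := by
    by_contra hc
    have : m = 0 ∨ m = 1 := by omega
    rcases this with h | h <;> rw [h] at hm <;> norm_num at hm
  have k0 : a * 2 ≤ a * m := Nat.mul_le_mul_left a hm2
  have k1 : a * m ≤ a * m ^ 2 := Nat.mul_le_mul_left a (by nlinarith)
  have k2 : a * m ^ 2 * 2 ≤ a * m ^ 3 := by
    have : a * m ^ 3 = a * m ^ 2 * m := by ring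
    rw [this]
    exact Nat.mul_le_mul_left _ hm2
  have haD' : a ≤ D := by omega
  refine flux_arcs ha hm hH h01 ?_ ?_
  · intro x hx y hy hyU h1 h2
    exact ring_hb hd haD' hH0 hH1 x hx y hy hyU h1 (by omega)
  · intro s h1 h2
    exact ring_arcs hd haD' hH0 hH1 (by omega) (by omega)

end Vale.Agent.P155.NT
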