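import Vale.Agent.P155.NT814.Ring

/-!
# P155, NT: ring arcs by parity
-/

namespace Vale.Agent.P155.NT

open Vale.Agent.P155 Finset H904

/-- faces connected to `f0` inside `O ∩ box(z0, D)` -/
def Cls (O : Set Pt) (z0 : Pt) (D : ℕ) (f0 : Pt) : Set Pt :=
  {f | Relation.ReflTransGen (fun x y => y ∈ nbrs x ∧ y ∈ O ∧ dn z0 y ≤ D) f0 f}

open Classical in
/-- the faces of the class of `f0` which do not touch the new path `v 0, …, v M` and have
parity `c` -/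
noncomputable def Uf (O : Set Pt) (z0 : Pt) (D : ℕ) (f0 : Pt) (v : ℕ → Pt) (M : ℕ)
    (π : Pt → ZMod 2) (c : ZMod 2) : Finset Pt :=
  (box z0 D).filter (fun f => f ∈ Cls O z0 D f0 ∧ (∀ i ≤ M, v i ∉ T802.corners f) ∧ π f = c)

variable {O : Set Pt} {z0 : Pt} {D : ℕ} {f0 : Pt} {v : ℕ → Pt} {M : ℕ}
  {π : Pt → ZMod 2} {c : ZMod 2}

theorem cls_step {f f' : Pt} (h : f ∈ Cls O z0 D f0) (h1 : f' ∈ nbrs f) (h2 : f' ∈ O)
    (h3 : dn z0 f' ≤ D) : f' ∈ Cls O z0 D f0 :=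
  Relation.ReflTransGen.tail h ⟨h1, h2, h3⟩

theorem cls_mem {f : Pt} (hO : f0 ∈ O) (hD : dn z0 f0 ≤ D) (h : f ∈ Cls O z0 D f0) :
    f ∈ O ∧ dn z0 f ≤ D := by
  induction h with
  | refl => exact ⟨hO, hD⟩
  | tail _ h _ => exact h.2

theorem mem_Uf {f : Pt} (hO : f0 ∈ O) (hD : dn z0 f0 ≤ D) : f ∈ Uf O z0 D f0 v M π c ↔
    f ∈ Cls O z0 D f0 ∧ (∀ i ≤ M, v i ∉ T802.corners f) ∧ π f = c := by
  classical
  unfold Uf
  rw [mem_filter, mem_box_dn]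
  exact ⟨fun h => h.2, fun h => ⟨(cls_mem hO hD h.1).2, h⟩⟩

theorem nbrs_symm' {f f' : Pt} : f' ∈ nbrs f ↔ f ∈ nbrs f' := nbrs_comm

/-- the hypotheses of the ring lemma which concern the path and the parity -/
structure RingData (O : Set Pt) (z0 : Pt) (a D : ℕ) (f0 : Pt) (v : ℕ → Pt) (M : ℕ)
    (π : Pt → ZMod 2) : Prop where
  inj : ∀ i j, i ≤ M → j ≤ M → v i = v j → i = j
  adj : ∀ i < M, Adj (v i) (v (i + 1))
  start : ∀ f, v 0 ∈ T802.corners f → D < dn z0 f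
  tip : ∀ f, v M ∈ T802.corners f → dn z0 f ≤ a
  f0 : v M ∈ T802.corners f0
  far : ∀ i ≤ M, ∀ f, v i ∈ T802.corners f → dn z0 f ≤ D →
    f ∈ O ∧ ∀ f' ∈ nbrs f, dn z0 f' ≤ D → f' ∈ O
  par : ∀ f f', f' ∈ nbrs f → f ∈ O → f' ∈ O → a ≤ dn z0 f → dn z0 f ≤ D → a ≤ dn z0 f' →
    dn z0 f' ≤ D → (π f ≠ π f' ↔ ∃ i < M, v i ∈ T802.corners f ∧ v i ∈ T802.corners f' ∧
      v (i + 1) ∈ T802.corners f ∧ v (i + 1) ∈ T802.corners f')

/-- an odd run of the ring gives an arc -/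
theorem arc_of_run {a : ℕ} (hd : RingData O z0 a D f0 v M π) (haD : a ≤ D) {H : Pt → ℝ}
    (hH0 : ∀ f ∈ Cls O z0 D f0, ∀ f' ∈ nbrs f, dn z0 f' ≤ D → f' ∉ O → H f' = 0)
    (hH1 : ∀ f ∈ Cls O z0 D f0, ∀ i ≤ M, v i ∈ T802.corners f → a < dn z0 f → π f = c → H f = 1)
    {s : ℕ} (hs : a < s) (hsD : s ≤ D) {n : ℕ} {r : ℕ → Pt} (hrs : ∀ j ≤ n, dn z0 (r j) = s)
    (hstep : ∀ j < n, r (j + 1) ∈ nbrs (r j)) (hinj : ∀ i j, i ≤ n → j ≤ n → r i = r j → i = j)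
    (h0 : r 0 ∉ Cls O z0 D f0) (hK : ∀ j, 1 ≤ j → j ≤ n → r j ∈ Cls O z0 D f0)
    (hn : 1 ≤ n) (h1 : π (r 1) = c) (h2 : π (r n) ≠ c) :
    HasArc z0 s (Uf O z0 D f0 v M π c) H := by
  have hf0O : f0 ∈ O := (hd.far M le_rfl f0 hd.f0 ((hd.tip f0 hd.f0).trans haD)).1
  have hf0D : dn z0 f0 ≤ D := (hd.tip f0 hd.f0).trans haD
  have hmem : ∀ f, f ∈ Uf O z0 D f0 v M π c ↔
    f ∈ Cls O z0 D f0 ∧ (∀ i ≤ M, v i ∉ T802.corners f) ∧ π f = c := fun f => mem_Uf hf0O hf0D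
  -- the face `r 0` is old
  have h0O : r 0 ∉ O := by
    intro h
    apply h0
    refine cls_step (hK 1 le_rfl hn) ?_ h (by rw [hrs 0 (by omega)]; exact hsD)
    exact nbrs_symm'.1 (hstep 0 (by omega))
  -- the first face which is not in `U`
  have hex : ∃ j, 1 ≤ j ∧ j ≤ n ∧ r j ∉ Uf O z0 D f0 v M π c := by
    refine ⟨n, hn, le_rfl, ?_⟩
    rw [hmem]
    rintro ⟨_, _, h⟩
    exact h2 h
  classical
  obtain ⟨hj1, hj2, hj3⟩ := Nat.find_spec hex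
  have hmin : ∀ i, 1 ≤ i → i < Nat.find hex → r i ∈ Uf O z0 D f0 v M π c := by
    intro i hi hi2
    by_contra hc
    exact Nat.find_min hex hi2 ⟨hi, by omega, hc⟩
  set j := Nat.find hex with hj
  have hr1 : r 1 ∈ Uf O z0 D f0 v M π c := by
    rw [hmem]
    refine ⟨hK 1 le_rfl hn, ?_, h1⟩
    intro i hi hvi
    apply h0O
    refine (hd.far i hi (r 1) hvi (by rw [hrs 1 hn]; exact hsD)).2 (r 0) ?_
      (by rw [hrs 0 (by omega)]; exact hsD)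
    exact nbrs_symm'.1 (hstep 0 (by omega))
  have hj4 : 2 ≤ j := by
    by_contra hc
    have : j = 1 := by omega
    rw [this] at hj3
    exact hj3 hr1
  refine ⟨j - 2, fun i => r (1 + i), ?_, ?_, ?_, ?_, ?_⟩
  · intro i hi
    exact ⟨hmin _ (by omega) (by omega), hrs _ (by omega)⟩
  · intro i hi
    have := hstep (1 + i) (by omega)
    rwa [add_assoc] at this
  · intro i i' hi hi' h
    have := hinj _ _ (by omega) (by omega) h
    omega
  · refine ⟨r 0, nbrs_symm'.1 (hstep 0 (by omega)), ?_, hrs 0 (by omega), ?_⟩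
    · rw [hmem]
      exact fun h => h0 h.1
    · exact hH0 (r 1) (hK 1 le_rfl hn) (r 0) (nbrs_symm'.1 (hstep 0 (by omega)))
        (by rw [hrs 0 (by omega)]; exact hsD) h0O
  · have e1 : 1 + (j - 2) = j - 1 := by omega
    have e2 : j - 1 + 1 = j := by omega
    have hprev := hmin (j - 1) (by omega) (by omega)
    have hnb : r j ∈ nbrs (r (j - 1)) := by
      have := hstep (j - 1) (by omega)
      rwa [e2] at this
    refine ⟨r j, by simp only [e1]; exact hnb, hj3, hrs j hj2, ?_⟩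
    rw [hmem] at hprev hj3
    have hjK := hK j hj1 hj2
    have hπ : π (r j) = c := by
      rw [← hprev.2.2]
      by_contra hne
      have h3 := (hd.par (r (j - 1)) (r j) hnb (cls_mem hf0O hf0D hprev.1).1
        (cls_mem hf0O hf0D hjK).1 (by rw [hrs _ (by omega)]; omega) (by rw [hrs _ (by omega)]; exact hsD)
        (by rw [hrs _ hj2]; omega) (by rw [hrs _ hj2]; exact hsD)).1 (fun h => hne h.symm)
      obtain ⟨i, hi, hvi, _⟩ := h3
      exact hprev.2.1 i hi.le hvi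
    have h4 : ∃ i ≤ M, v i ∈ T802.corners (r j) := by
      by_contra hc
      push Not at hc
      exact hj3 ⟨hjK, hc, hπ⟩
    obtain ⟨i, hi, hvi⟩ := h4
    exact hH1 (r j) hjK i hi hvi (by rw [hrs _ hj2]; exact hs) hπ

/-- the values of `H` next to `U` -/
theorem ring_hb {a : ℕ} (hd : RingData O z0 a D f0 v M π) (haD : a ≤ D) {H : Pt → ℝ}
    (hH0 : ∀ f ∈ Cls O z0 D f0, ∀ f' ∈ nbrs f, dn z0 f' ≤ D → f' ∉ O → H f' = 0)
    (hH1 : ∀ f ∈ Cls O z0 D f0, ∀ i ≤ M, v i ∈ T802.corners f → a < dn z0 f → π f = c → H f = 1) :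
    ∀ x ∈ Uf O z0 D f0 v M π c, ∀ y ∈ nbrs x, y ∉ Uf O z0 D f0 v M π c → a < dn z0 y →
      dn z0 y ≤ D → H y = 0 ∨ H y = 1 := by
  have hf0O : f0 ∈ O := (hd.far M le_rfl f0 hd.f0 ((hd.tip f0 hd.f0).trans haD)).1
  have hf0D : dn z0 f0 ≤ D := (hd.tip f0 hd.f0).trans haD
  intro x hx y hy hyU hya hyD
  rw [mem_Uf hf0O hf0D] at hx hyU
  by_cases hyO : y ∈ O
  · right
    have hyK := cls_step hx.1 hy hyO hyD
    have hxa : a ≤ dn z0 x := by
      have := dn_nbr (z := z0) hy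
      omega
    have hπ : π y = c := by
      rw [← hx.2.2]
      by_contra hne
      obtain ⟨i, hi, hvi, _⟩ := (hd.par x y hy (cls_mem hf0O hf0D hx.1).1 hyO hxa
        (cls_mem hf0O hf0D hx.1).2 hya.le hyD).1 (fun h => hne h.symm)
      exact hx.2.1 i hi.le hvi
    have h4 : ∃ i ≤ M, v i ∈ T802.corners y := by
      by_contra hc
      push Not at hc
      exact hyU ⟨hyK, hc, hπ⟩
    obtain ⟨i, hi, hvi⟩ := h4
    exact hH1 y hyK i hi hvi hya hπ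
  · left
    exact hH0 x hx.1 y hy hyD hyO

end Vale.Agent.P155.NT
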