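import Vale.Agent.P155.NT814.Arcs

/-!
# P155, NT: the new path crosses the ring an odd number of times inside the class
-/

namespace Vale.Agent.P155.NT

open Vale.Agent.P155 Finset H904

variable {O : Set Pt} {z0 : Pt} {a D : ℕ} {f0 : Pt} {v : ℕ → Pt} {M : ℕ}
  {π : Pt → ZMod 2} {c : ZMod 2}

theorem around {u f f' : Pt} (hu : ∀ g, u ∈ T802.corners g → g ∈ O ∧ dn z0 g ≤ D)
    (hf : u ∈ T802.corners f) (hf' : u ∈ T802.corners f') (hK : f ∈ Cls O z0 D f0) :
    f' ∈ Cls O z0 D f0 := by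
  have hg : u ∈ T802.corners (f'.1, f.2) := by
    rw [mem_corners'] at hf hf' ⊢
    simp only
    omega
  have h1 : (f'.1, f.2) ∈ Cls O z0 D f0 := by
    by_cases h : f'.1 = f.1
    · rw [h]; exact hK
    · refine cls_step hK ?_ (hu _ hg).1 (hu _ hg).2
      rw [mem_nbrs, adj_iff']
      rw [mem_corners'] at hf hf'
      dsimp only
      omega
  by_cases h : f'.2 = f.2
  · have : f' = (f'.1, f.2) := by rw [← h]
    rw [this]; exact h1
  · refine cls_step h1 ?_ (hu _ hf').1 (hu _ hf').2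
    rw [mem_nbrs, adj_iff']
    rw [mem_corners'] at hf hf'
    dsimp only
    omega

theorem win_faces {s : ℕ} {u g : Pt} (h : Win z0 s u) (hg : u ∈ T802.corners g) :
    dn z0 g ≤ s := by
  rw [dn_le_iff']
  rw [mem_corners'] at hg
  unfold Win at h
  omega

theorem exists_face (u : Pt) : u ∈ T802.corners u := by
  rw [mem_corners']; omega

theorem exists_common {u u' : Pt} (h : Adj u u') :
    ∃ g, u ∈ T802.corners g ∧ u' ∈ T802.corners g := by
  rw [adj_iff'] at h
  rcases h with ⟨h1, h2 | h2⟩ | ⟨h1, h2 | h2⟩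
  · exact ⟨u', by rw [mem_corners']; omega, by rw [mem_corners']; omega⟩
  · exact ⟨u, by rw [mem_corners']; omega, by rw [mem_corners']; omega⟩
  · exact ⟨u', by rw [mem_corners']; omega, by rw [mem_corners']; omega⟩
  · exact ⟨u, by rw [mem_corners']; omega, by rw [mem_corners']; omega⟩

/-- the step `i` of the path goes through the common edge of the faces `f` and `f'` -/
def StepOn (v : ℕ → Pt) (f f' : Pt) (i : ℕ) : Prop :=
  v i ∈ T802.corners f ∧ v i ∈ T802.corners f' ∧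
      v (i + 1) ∈ T802.corners f ∧ v (i + 1) ∈ T802.corners f'

theorem stepOn_iff {s : ℕ} {t i : ℕ} (ht : t < 8 * s) (hadj : Adj (v i) (v (i + 1))) :
    StepOn v (R z0 s t) (R z0 s (t + 1)) i ↔
      (v i = wi z0 s t ∧ v (i + 1) = wo z0 s t) ∨ (v i = wo z0 s t ∧ v (i + 1) = wi z0 s t) := by
  have hs : 1 ≤ s := by omega
  have e1 : R z0 s t = rp z0 s t := by
    unfold R
    rw [Nat.mod_eq_of_lt ht]
  have e2 : R z0 s (t + 1) = rp z0 s (t + 1) := by
    rw [R_succ hs, Nat.mod_eq_of_lt ht]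
  have h1 := ring_corner (z := z0) (s := s) (t := t) (by positivity) (by exact_mod_cast ht)
    (u := v i)
  have h2 := ring_corner (z := z0) (s := s) (t := t) (by positivity) (by exact_mod_cast ht)
    (u := v (i + 1))
  have hne : v i ≠ v (i + 1) := by
    intro h
    rw [← h, adj_iff'] at hadj
    omega
  unfold StepOn
  rw [e1, e2]
  constructor
  · rintro ⟨a1, a2, a3, a4⟩
    rcases h1.1 ⟨a1, a2⟩ with b1 | b1 <;> rcases h2.1 ⟨a3, a4⟩ with b2 | b2
    · exact absurd (b1.trans b2.symm) hne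
    · exact Or.inl ⟨b1, b2⟩
    · exact Or.inr ⟨b1, b2⟩
    · exact absurd (b1.trans b2.symm) hne
  · rintro (⟨b1, b2⟩ | ⟨b1, b2⟩)
    · obtain ⟨c1, c2⟩ := h1.2 (Or.inl b1)
      obtain ⟨c3, c4⟩ := h2.2 (Or.inr b2)
      exact ⟨c1, c2, c3, c4⟩
    · obtain ⟨c1, c2⟩ := h1.2 (Or.inr b1)
      obtain ⟨c3, c4⟩ := h2.2 (Or.inl b2)
      exact ⟨c1, c2, c3, c4⟩

theorem step_unique (hd : RingData O z0 a D f0 v M π) {s t i i' : ℕ} (ht : t < 8 * s)
    (hi : i < M) (hi' : i' < M) (h : StepOn v (R z0 s t) (R z0 s (t + 1)) i)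
    (h' : StepOn v (R z0 s t) (R z0 s (t + 1)) i') : i = i' := by
  rw [stepOn_iff ht (hd.adj i hi)] at h
  rw [stepOn_iff ht (hd.adj i' hi')] at h'
  rcases h with ⟨h1, h2⟩ | ⟨h1, h2⟩ <;> rcases h' with ⟨h3, h4⟩ | ⟨h3, h4⟩
  · exact hd.inj _ _ hi.le hi'.le (h1.trans h3.symm)
  · have e1 := hd.inj _ _ hi.le hi' (h1.trans h4.symm)
    have e2 := hd.inj _ _ hi hi'.le (h2.trans h3.symm)
    omega
  · have e1 := hd.inj _ _ hi.le hi' (h1.trans h4.symm)
    have e2 := hd.inj _ _ hi hi'.le (h2.trans h3.symm)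
    omega
  · exact hd.inj _ _ hi.le hi'.le (h1.trans h3.symm)

open Classical in
/-- the vertex lies inside the ring and in the class -/
noncomputable def chi (O : Set Pt) (z0 : Pt) (D : ℕ) (f0 : Pt) (s : ℕ) (u : Pt) : ZMod 2 :=
  if Win z0 s u ∧ u ∈ {u | ∃ f ∈ Cls O z0 D f0, u ∈ T802.corners f} then 1 else 0

open Classical in
/-- crossings of the ring edge `t` by step `i` inside the class -/
noncomputable def ci (O : Set Pt) (z0 : Pt) (D : ℕ) (f0 : Pt) (v : ℕ → Pt) (s t i : ℕ) : ZMod 2 :=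
  if R z0 s t ∈ Cls O z0 D f0 ∧ R z0 s (t + 1) ∈ Cls O z0 D f0 ∧
    StepOn v (R z0 s t) (R z0 s (t + 1)) i then 1 else 0

theorem chi_pos {s : ℕ} {u : Pt} (h : Win z0 s u)
    (h' : ∃ f ∈ Cls O z0 D f0, u ∈ T802.corners f) : chi O z0 D f0 s u = 1 := by
  unfold chi
  exact if_pos ⟨h, h'⟩

theorem chi_neg {s : ℕ} {u : Pt} (h : ¬ (Win z0 s u ∧ ∃ f ∈ Cls O z0 D f0, u ∈ T802.corners f)) :
    chi O z0 D f0 s u = 0 := by
  unfold chi
  exact if_neg h

theorem hu_of (hd : RingData O z0 a D f0 v M π) {s : ℕ} (hsD : s ≤ D) {i : ℕ} (hi : i ≤ M)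
    (hw : Win z0 s (v i)) : ∀ g, v i ∈ T802.corners g → g ∈ O ∧ dn z0 g ≤ D := by
  intro g hg
  have h1 := (win_faces hw hg).trans hsD
  exact ⟨(hd.far i hi g hg h1).1, h1⟩

/-- the case of one end inside -/
theorem one_end {s : ℕ} {i : ℕ} {u u' : Pt} (hadj : Adj (v i) (v (i + 1)))
    (huu : (v i = u ∧ v (i + 1) = u') ∨ (v i = u' ∧ v (i + 1) = u))
    (hw : Win z0 s u) (hw' : ¬ Win z0 s u') (hA : Adj u u')
    (hu : ∀ g, u ∈ T802.corners g → g ∈ O ∧ dn z0 g ≤ D) :
    ∑ t ∈ range (8 * s), ci O z0 D f0 v s t i = chi O z0 D f0 s u + chi O z0 D f0 s u' := by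
  classical
  obtain ⟨t, ht0, ht1, htu, htu'⟩ := exists_t hw hw' hA
  obtain ⟨t, rfl⟩ := Int.eq_ofNat_of_zero_le ht0
  have ht : t < 8 * s := by exact_mod_cast ht1
  have hs : 1 ≤ s := by omega
  have hst : StepOn v (R z0 s t) (R z0 s (t + 1)) i := by
    rw [stepOn_iff ht hadj]
    rcases huu with ⟨h1, h2⟩ | ⟨h1, h2⟩
    · exact Or.inl ⟨h1.trans htu, h2.trans htu'⟩
    · exact Or.inr ⟨h1.trans htu', h2.trans htu⟩
  have hcu : u ∈ T802.corners (R z0 s t) ∧ u ∈ T802.corners (R z0 s (t + 1)) := by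
    rcases huu with ⟨h1, h2⟩ | ⟨h1, h2⟩
    · rw [← h1]; exact ⟨hst.1, hst.2.1⟩
    · rw [← h2]; exact ⟨hst.2.2.1, hst.2.2.2⟩
  rw [sum_eq_single t]
  · rw [chi_neg (u := u') (fun h => hw' h.1), add_zero]
    by_cases hk : R z0 s t ∈ Cls O z0 D f0
    · have hk' : R z0 s (t + 1) ∈ Cls O z0 D f0 := around hu hcu.1 hcu.2 hk
      rw [chi_pos hw ⟨_, hk, hcu.1⟩]
      unfold ci
      rw [if_pos ⟨hk, hk', hst⟩]
    · rw [chi_neg]
      · unfold ci
        rw [if_neg (fun h => hk h.1)]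
      · rintro ⟨_, f, hf, hfu⟩
        exact hk (around hu hfu hcu.1 hf)
  · intro t' ht' hne
    rw [mem_range] at ht'
    unfold ci
    rw [if_neg]
    rintro ⟨_, _, h3⟩
    rw [stepOn_iff ht' hadj] at h3
    apply hne
    have key : u = wi z0 s t' ∧ u' = wo z0 s t' := by
      rcases huu with ⟨h1, h2⟩ | ⟨h1, h2⟩ <;> rcases h3 with ⟨h4, h5⟩ | ⟨h4, h5⟩
      · exact ⟨h1.symm.trans h4, h2.symm.trans h5⟩
      · exfalso
        rw [← h1, h4] at hw
        exact wo_win (by positivity) (by exact_mod_cast ht') hw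
      · exfalso
        rw [← h2, h5] at hw
        exact wo_win (by positivity) (by exact_mod_cast ht') hw
      · exact ⟨h2.symm.trans h5, h1.symm.trans h4⟩
    have := wiwo_inj (z := z0) (s := s) (t := t) (t' := t') (by positivity)
      (by exact_mod_cast ht) (by positivity) (by exact_mod_cast ht')
      (htu.symm.trans key.1) (htu'.symm.trans key.2)
    exact_mod_cast this.symm
  · intro h
    exact absurd (mem_range.2 ht) h

theorem sum_ci (hd : RingData O z0 a D f0 v M π) {s : ℕ} (hsD : s ≤ D) {i : ℕ} (hi : i < M) :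
    ∑ t ∈ range (8 * s), ci O z0 D f0 v s t i =
      chi O z0 D f0 s (v i) + chi O z0 D f0 s (v (i + 1)) := by
  classical
  have hadj := hd.adj i hi
  have hadj' : Adj (v (i + 1)) (v i) := by
    rw [adj_iff'] at hadj ⊢; omega
  by_cases h1 : Win z0 s (v i) <;> by_cases h2 : Win z0 s (v (i + 1))
  · have hz : ∀ t ∈ range (8 * s), ci O z0 D f0 v s t i = 0 := by
      intro t ht
      rw [mem_range] at ht
      unfold ci
      rw [if_neg]
      rintro ⟨_, _, h3⟩
      rw [stepOn_iff ht hadj] at h3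
      rcases h3 with ⟨h4, h5⟩ | ⟨h4, h5⟩
      · rw [h5] at h2
        exact wo_win (by positivity) (by exact_mod_cast ht) h2
      · rw [h4] at h1
        exact wo_win (by positivity) (by exact_mod_cast ht) h1
    rw [sum_eq_zero hz]
    have hu := hu_of hd hsD hi.le h1
    have hu' := hu_of hd hsD (i := i + 1) hi h2
    obtain ⟨g, hg, hg'⟩ := exists_common hadj
    by_cases hk : g ∈ Cls O z0 D f0
    · rw [chi_pos h1 ⟨g, hk, hg⟩, chi_pos h2 ⟨g, hk, hg'⟩]
      decide
    · rw [chi_neg, chi_neg, add_zero]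
      · rintro ⟨_, f, hf, hfu⟩
        exact hk (around hu' hfu hg' hf)
      · rintro ⟨_, f, hf, hfu⟩
        exact hk (around hu hfu hg hf)
  · exact one_end hadj (Or.inl ⟨rfl, rfl⟩) h1 h2 hadj (hu_of hd hsD hi.le h1)
  · rw [add_comm]
    exact one_end hadj (Or.inr ⟨rfl, rfl⟩) h2 h1 hadj' (hu_of hd hsD (i := i + 1) hi h2)
  · have hz : ∀ t ∈ range (8 * s), ci O z0 D f0 v s t i = 0 := by
      intro t ht
      rw [mem_range] at ht
      unfold ci
      rw [if_neg]
      rintro ⟨_, _, h3⟩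
      rw [stepOn_iff ht hadj] at h3
      rcases h3 with ⟨h4, h5⟩ | ⟨h4, h5⟩
      · rw [h4] at h1
        exact h1 (wi_win (by positivity) (by exact_mod_cast ht))
      · rw [h5] at h2
        exact h2 (wi_win (by positivity) (by exact_mod_cast ht))
    rw [sum_eq_zero hz, chi_neg (fun h => h1 h.1), chi_neg (fun h => h2 h.1), add_zero]

theorem tele (χ : ℕ → ZMod 2) (M : ℕ) : ∑ i ∈ range M, (χ i + χ (i + 1)) = χ 0 + χ M := by
  induction M with
  | zero => rw [sum_range_zero]; exact (T802.z2 _).symm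
  | succ M ih =>
    rw [sum_range_succ, ih]
    have : ∀ p q r : ZMod 2, p + q + (q + r) = p + r := by decide
    exact this _ _ _

open Classical in
/-- the ring edge `t` is crossed inside the class -/
noncomputable def ct (O : Set Pt) (z0 : Pt) (D : ℕ) (f0 : Pt) (v : ℕ → Pt) (M s t : ℕ) : ZMod 2 :=
  if R z0 s t ∈ Cls O z0 D f0 ∧ R z0 s (t + 1) ∈ Cls O z0 D f0 ∧
    ∃ i < M, StepOn v (R z0 s t) (R z0 s (t + 1)) i then 1 else 0

theorem ct_eq (hd : RingData O z0 a D f0 v M π) {s t : ℕ} (ht : t < 8 * s) :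
    ct O z0 D f0 v M s t = ∑ i ∈ range M, ci O z0 D f0 v s t i := by
  classical
  unfold ct
  split_ifs with h
  · obtain ⟨h1, h2, i, hi, h3⟩ := h
    rw [sum_eq_single i]
    · unfold ci
      rw [if_pos ⟨h1, h2, h3⟩]
    · intro j hj hne
      unfold ci
      rw [if_neg]
      rintro ⟨_, _, h4⟩
      exact hne (step_unique hd ht (mem_range.1 hj) hi h4 h3)
    · intro h
      exact absurd (mem_range.2 hi) h
  · symm
    apply sum_eq_zero
    intro i hi
    unfold ci
    rw [if_neg]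
    rintro ⟨h1, h2, h3⟩
    exact h ⟨h1, h2, i, mem_range.1 hi, h3⟩

/-- **the new path crosses the ring an odd number of times inside the class** -/
theorem sum_ct (hd : RingData O z0 a D f0 v M π) {s : ℕ} (hs : a < s) (hsD : s ≤ D) :
    ∑ t ∈ range (8 * s), ct O z0 D f0 v M s t = 1 := by
  rw [sum_congr rfl (fun t ht => ct_eq hd (mem_range.1 ht)), sum_comm,
    sum_congr rfl (fun i hi => sum_ci hd hsD (mem_range.1 hi)),
    tele (fun i => chi O z0 D f0 s (v i)) M]
  have h0 : chi O z0 D f0 s (v 0) = 0 := by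
    apply chi_neg
    rintro ⟨hw, _⟩
    have h1 := win_faces hw (exists_face (v 0))
    have h2 := hd.start _ (exists_face (v 0))
    omega
  have hw : Win z0 s (v M) := by
    have h1 := hd.tip _ (exists_face (v M))
    have h2 := hd.tip ((v M).1 - 1, (v M).2 - 1) (by rw [mem_corners']; simp only; omega)
    rw [dn_le_iff'] at h1 h2
    simp only at h1 h2
    unfold Win
    omega
  have h1 : chi O z0 D f0 s (v M) = 1 :=
    chi_pos hw ⟨f0, Relation.ReflTransGen.refl, hd.f0⟩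
  rw [h0, h1, zero_add]

end Vale.Agent.P155.NT
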